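import Crest.Agent.R35.Tab

/-! Kernel check of part 1 of the table. -/

set_option autoImplicit false
set_option maxRecDepth 100000

namespace Crest.Agent.R35

theorem c1 : d1.all (chk tab) = true := by decide +kernel

end Crest.Agent.R35
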