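import Crest.Agent.R35.Game

/-! A bitboard checker for tables of situations, and its soundness. Bit `i` of a natural number
stands for the cell `(i % 48, i / 48)`. -/

set_option autoImplicit false

namespace Crest.Agent.R35

open Crest.CombinatoricsR.PolyominoGame

/-- A search tree of table entries `(K, core, neighbourhood, m, e)`. -/
inductive T : Type
  | leaf (K c n m e : Nat) : T
  | node (b : Nat) (l r : T) : T

noncomputable def T.get (t : T) (i : Nat) (f : Nat → Nat → Nat → Bool) : Bool :=
  T.rec (fun K c n _ _ => f K c n) (fun b _ _ ihl ihr => Bool.rec ihl ihr (Nat.ble b i)) t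

noncomputable def T.all (t : T) (p : Nat → Nat → Nat → Nat → Nat → Bool) : Bool :=
  T.rec (fun K c n m e => p K c n m e) (fun _ _ _ ihl ihr => Bool.rec false ihr ihl) t

def T.Mem : T → Nat → Nat → Nat → Nat → Nat → Prop
  | .leaf K c n m e, K', c', n', m', e' => K = K' ∧ c = c' ∧ n = n' ∧ m = m' ∧ e = e'
  | .node _ l r, K', c', n', m', e' => l.Mem K' c' n' m' e' ∨ r.Mem K' c' n' m' e'

theorem T.get_sound (t : T) (i : Nat) (f : Nat → Nat → Nat → Bool) (h : t.get i f = true) :
    ∃ K c n m e, t.Mem K c n m e ∧ f K c n = true := by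
  induction t with
  | leaf K c n m e => exact ⟨K, c, n, m, e, ⟨rfl, rfl, rfl, rfl, rfl⟩, h⟩
  | node b l r ihl ihr =>
    change Bool.rec (l.get i f) (r.get i f) (Nat.ble b i) = true at h
    cases hb : Nat.ble b i
    · rw [hb] at h
      obtain ⟨K, c, n, m, e, h1, h2⟩ := ihl h
      exact ⟨K, c, n, m, e, Or.inl h1, h2⟩
    · rw [hb] at h
      obtain ⟨K, c, n, m, e, h1, h2⟩ := ihr h
      exact ⟨K, c, n, m, e, Or.inr h1, h2⟩

theorem T.all_node (b : Nat) (l r : T) (p : Nat → Nat → Nat → Nat → Nat → Bool)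
    (hl : l.all p = true) (hr : r.all p = true) : (T.node b l r).all p = true := by
  change Bool.rec false (r.all p) (l.all p) = true
  rw [hl]; exact hr

theorem T.all_sound (t : T) (p : Nat → Nat → Nat → Nat → Nat → Bool) (h : t.all p = true) :
    ∀ K c n m e, t.Mem K c n m e → p K c n m e = true := by
  induction t with
  | leaf K c n m e =>
    rintro K' c' n' m' e' ⟨rfl, rfl, rfl, rfl, rfl⟩
    exact h
  | node b l r ihl ihr =>
    change Bool.rec false (r.all p) (l.all p) = true at h
    cases hl : l.all p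
    · rw [hl] at h; exact absurd h (by simp)
    · rw [hl] at h
      rintro K c n m e (hm | hm)
      · exact ihl hl _ _ _ _ _ hm
      · exact ihr h _ _ _ _ _ hm

/-- `a && b` by the recursor. -/
noncomputable def an (a b : Bool) : Bool := Bool.rec false b a

theorem an_iff {a b : Bool} : an a b = true ↔ a = true ∧ b = true := by
  cases a <;> cases b <;> simp [an]

def sub (a b : Nat) : Bool := Nat.beq (Nat.land a b) a

theorem sub_sound {a b : Nat} (h : sub a b = true) (i : Nat) (hi : a.testBit i = true) :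
    b.testBit i = true := by
  have h1 : a &&& b = a := Nat.eq_of_beq_eq_true h
  have h2 : (a &&& b).testBit i = true := by rw [h1]; exact hi
  rw [Nat.testBit_and] at h2
  simp only [Bool.and_eq_true] at h2
  exact h2.2

def cell (i : Nat) : Cell := (((i % 48 : Nat) : ℤ), ((i / 48 : Nat) : ℤ))

theorem cell_inj {i j : Nat} (h : cell i = cell j) : i = j := by
  simp only [cell, Prod.mk.injEq, Nat.cast_inj] at h
  omega

def S (x : Nat) : Set Cell := {p | ∃ i, x.testBit i = true ∧ cell i = p}

/-- Columns and rows below 24. -/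
def MASK : Nat := 0xffffff000000ffffff000000ffffff000000ffffff000000ffffff000000ffffff000000ffffff000000ffffff000000ffffff000000ffffff000000ffffff000000ffffff000000ffffff000000ffffff000000ffffff000000ffffff000000ffffff000000ffffff000000ffffff000000ffffff000000ffffff000000ffffff000000ffffff000000ffffff

theorem mask_small : ∀ i < 1152, MASK.testBit i = true → i % 48 < 24 := by decide +kernel

theorem mask_lt : MASK < 2 ^ 1152 := by decide +kernel

theorem mask_spec {i : Nat} (h : MASK.testBit i = true) : i < 1152 ∧ i % 48 < 24 := by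
  have h1 : i < 1152 := by
    by_contra hi
    have : MASK < 2 ^ i := lt_of_lt_of_le mask_lt (Nat.pow_le_pow_right (by norm_num) (by omega))
    rw [Nat.testBit_lt_two_pow this] at h
    exact absurd h (by simp)
  exact ⟨h1, mask_small i h1 h⟩

/-- The bits of Snaky itself. -/
def SN : Nat := 0x1800000000000f

/-- What is proved of every table entry. -/
def Val (K c n : Nat) : Prop :=
  Good (K / 2) (S c) (S n) ∧ ∀ i, (c.testBit i = true ∨ n.testBit i = true) → i % 48 < 24

noncomputable def loop (t : T) (K c1 U : Nat) (fuel : Nat) : Nat → Nat → Bool :=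
  Nat.rec (fun _ _ => false)
    (fun _ ih e I => Bool.rec
      (t.get (Nat.shiftRight (Nat.mod e 4294967296) 11) fun K0 c0 n0 =>
        an (Nat.ble (Nat.succ K0) K) (an (Nat.ble (Nat.mod (Nat.mod e 2048) 48) 23)
          (an (sub (Nat.shiftLeft c0 (Nat.mod e 2048)) c1)
            (an (sub (Nat.shiftLeft n0 (Nat.mod e 2048)) U)
              (ih (Nat.shiftRight e 32) (Nat.land I (Nat.shiftLeft n0 (Nat.mod e 2048))))))))
      (sub I c1) (Nat.beq e 0)) fuel

theorem mem_shift {x sh : Nat} (hx : ∀ i, x.testBit i = true → i % 48 < 24) (hs : sh % 48 ≤ 23)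
    (p : Cell) (hp : p ∈ S x) :
    ((((sh % 48 : Nat) : ℤ) + 1 * p.1, ((sh / 48 : Nat) : ℤ) + 1 * p.2) : Cell) ∈ S (x <<< sh) := by
  obtain ⟨i, h1, rfl⟩ := hp
  refine ⟨i + sh, ?_, ?_⟩
  · rw [Nat.testBit_shiftLeft]
    simpa using h1
  · have := hx i h1
    simp only [cell, Prod.mk.injEq]
    constructor <;> omega

theorem loop_sound (t : T) (K c1 U : Nat)
    (ht : ∀ K0 c n m e, K0 < K → t.Mem K0 c n m e → Val K0 c n) (fuel : Nat) :
    ∀ e I, loop t K c1 U fuel e I = true → ∀ i, I.testBit i = true → c1.testBit i = false →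
      ∃ K0 c n, K0 < K ∧ Good (K0 / 2) (S c) (S n) ∧ (∀ j, c.testBit j = true → c1.testBit j = true) ∧
        (∀ j, n.testBit j = true → U.testBit j = true) ∧ n.testBit i = false := by
  induction fuel with
  | zero => intro e I h; exact absurd h (by simp [loop])
  | succ fuel ih =>
    intro e I h i hi hc
    change Bool.rec (t.get (Nat.shiftRight (Nat.mod e 4294967296) 11) fun K0 c0 n0 =>
        an (Nat.ble (Nat.succ K0) K) (an (Nat.ble (Nat.mod (Nat.mod e 2048) 48) 23)
          (an (sub (Nat.shiftLeft c0 (Nat.mod e 2048)) c1)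
            (an (sub (Nat.shiftLeft n0 (Nat.mod e 2048)) U)
              (loop t K c1 U fuel (Nat.shiftRight e 32)
                (Nat.land I (Nat.shiftLeft n0 (Nat.mod e 2048))))))))
      (sub I c1) (Nat.beq e 0) = true at h
    cases he : Nat.beq e 0
    · rw [he] at h
      obtain ⟨K0, c0, n0, m0, e0, hm, h⟩ := T.get_sound _ _ _ h
      generalize Nat.mod e 2048 = sh at h
      simp only [an_iff] at h
      obtain ⟨h1, h2, h3, h4, h5⟩ := h
      have h1' : K0 < K := Nat.le_of_ble_eq_true h1
      have h2' : sh % 48 ≤ 23 := Nat.le_of_ble_eq_true h2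
      obtain ⟨g, gm⟩ := ht K0 c0 n0 m0 e0 h1' hm
      cases hn : (n0 <<< sh).testBit i
      · refine ⟨K0, c0 <<< sh, n0 <<< sh, h1', ?_, sub_sound h3, sub_sound h4, hn⟩
        exact good_aff _ _ 1 1 (Or.inl rfl) (Or.inl rfl) g
          (mem_shift (fun j hj => gm j (Or.inl hj)) h2')
          (mem_shift (fun j hj => gm j (Or.inr hj)) h2')
      · refine ih _ _ h5 i ?_ hc
        change (I &&& (n0 <<< sh)).testBit i = true
        rw [Nat.testBit_and, hi, hn]; rfl
    · rw [he] at h
      have := sub_sound h i hi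
      rw [hc] at this
      exact absurd this (by simp)

def bit (c j : Nat) : Bool := Nat.beq (Nat.land (Nat.shiftRight c j) 1) 1

theorem bit_sound {c j : Nat} (h : bit c j = true) : c.testBit j = true := by
  have h1 : (c >>> j) &&& 1 = 1 := Nat.eq_of_beq_eq_true h
  rw [Nat.testBit, Nat.and_comm, h1]; rfl

/-- `a - x` when `a ≠ 0`, else `x`; handed to `f`, with the guard `x ≤ a`. -/
noncomputable def flip (a x : Nat) (f : Nat → Bool) : Bool :=
  Bool.rec (an (Nat.ble x a) (f (Nat.sub a x))) (f x) (Nat.beq a 0)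

def sg (a : Nat) : ℤ := if a = 0 then 1 else -1

theorem sg_cases (a : Nat) : sg a = 1 ∨ sg a = -1 := by
  unfold sg; split <;> simp

theorem flip_sound {a x : Nat} {f : Nat → Bool} (h : flip a x f = true) :
    ∃ y : Nat, (y : ℤ) = a + sg a * x ∧ f y = true := by
  unfold flip at h
  cases ha : Nat.beq a 0
  · rw [ha] at h
    obtain ⟨h1, h2⟩ := an_iff.1 h
    have h1' : x ≤ a := Nat.le_of_ble_eq_true h1
    have ha' : a ≠ 0 := Nat.ne_of_beq_eq_false ha
    refine ⟨a - x, ?_, h2⟩
    simp only [sg, ha', if_false]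
    omega
  · rw [ha] at h
    have ha' : a = 0 := Nat.eq_of_beq_eq_true ha
    refine ⟨x, ?_, h⟩
    simp [sg, ha']

noncomputable def cellOK (a b c x y : Nat) : Bool :=
  flip a x fun X => flip b y fun Y => an (Nat.ble X 47) (bit c (Nat.add (Nat.mul Y 48) X))

theorem cellOK_sound {a b c x y : Nat} (h : cellOK a b c x y = true) :
    (((a : ℤ) + sg a * x, (b : ℤ) + sg b * y) : Cell) ∈ S c := by
  obtain ⟨X, hX, h⟩ := flip_sound h
  obtain ⟨Y, hY, h⟩ := flip_sound h
  obtain ⟨h1, h2⟩ := an_iff.1 h
  have h1' : X ≤ 47 := Nat.le_of_ble_eq_true h1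
  refine ⟨Y * 48 + X, bit_sound h2, ?_⟩
  rw [← hX, ← hY]
  simp only [cell, Prod.mk.injEq]
  constructor <;> omega

/-- Test `f (x + i)` for every set bit `i` of `r`. -/
noncomputable def row (f : Nat → Bool) (fuel : Nat) : Nat → Nat → Bool :=
  Nat.rec (fun _ _ => false)
    (fun _ ih r x => Nat.rec true
      (fun p _ => an (Bool.rec (f x) true (Nat.beq (Nat.mod (Nat.succ p) 2) 0))
        (ih (Nat.div (Nat.succ p) 2) (Nat.succ x))) r) fuel

theorem row_sound (f : Nat → Bool) (fuel : Nat) :
    ∀ r x, row f fuel r x = true → ∀ i, r.testBit i = true → f (x + i) = true := by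
  induction fuel with
  | zero => intro r x h; exact absurd h (by simp [row])
  | succ fuel ih =>
    intro r x h i hi
    cases r with
    | zero => simp at hi
    | succ p =>
      change an (Bool.rec (f x) true (Nat.beq (Nat.mod (Nat.succ p) 2) 0))
        (row f fuel (Nat.div (Nat.succ p) 2) (Nat.succ x)) = true at h
      obtain ⟨h1, h2⟩ := an_iff.1 h
      cases i with
      | zero =>
        cases hb : Nat.beq (Nat.mod (Nat.succ p) 2) 0
        · rw [hb] at h1; exact h1
        · have h3 : (p + 1) % 2 = 0 := Nat.eq_of_beq_eq_true hb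
          rw [Nat.testBit_zero, h3] at hi
          exact absurd hi (by simp)
      | succ i =>
        have := ih _ _ h2 i (by rw [Nat.testBit_succ] at hi; exact hi)
        rw [show x + (i + 1) = Nat.succ x + i by omega]
        exact this

/-- Test `g (i % 48) (y + i / 48)` for every set bit `i` of `x`. -/
noncomputable def bits (g : Nat → Nat → Bool) (fuel : Nat) : Nat → Nat → Bool :=
  Nat.rec (fun _ _ => false)
    (fun _ ih x y => Nat.rec true
      (fun p _ => an (row (fun u => g u y) 50 (Nat.mod (Nat.succ p) 281474976710656) 0)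
        (ih (Nat.shiftRight (Nat.succ p) 48) (Nat.succ y))) x) fuel

theorem bits_sound (g : Nat → Nat → Bool) (fuel : Nat) :
    ∀ x y, bits g fuel x y = true → ∀ i, x.testBit i = true → g (i % 48) (y + i / 48) = true := by
  induction fuel with
  | zero => intro x y h; exact absurd h (by simp [bits])
  | succ fuel ih =>
    intro x y h i hi
    cases x with
    | zero => simp at hi
    | succ p =>
      change an (row (fun u => g u y) 50 (Nat.mod (Nat.succ p) 281474976710656) 0)
        (bits g fuel (Nat.shiftRight (Nat.succ p) 48) (Nat.succ y)) = true at h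
      obtain ⟨h1, h2⟩ := an_iff.1 h
      by_cases hl : i < 48
      · have := row_sound _ _ _ _ h1 i (by
          change ((p + 1) % 2 ^ 48).testBit i = true
          rw [Nat.testBit_mod_two_pow, hi]; simp [hl])
        rw [Nat.mod_eq_of_lt hl, Nat.div_eq_of_lt hl]
        simpa using this
      · have := ih _ _ h2 (i - 48) (by
          change ((p + 1) >>> 48).testBit (i - 48) = true
          rw [Nat.testBit_shiftRight, show 48 + (i - 48) = i by omega]; exact hi)
        rw [show (i - 48) % 48 = i % 48 by omega,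
          show Nat.succ y + (i - 48) / 48 = y + i / 48 by omega] at this
        exact this

theorem bits_sound' {g : Nat → Nat → Bool} {fuel x : Nat} (h : bits g fuel x 0 = true) (i : Nat)
    (hi : x.testBit i = true) : g (i % 48) (i / 48) = true := by
  simpa using bits_sound g fuel x 0 h i hi

noncomputable def mapOK (e x c : Nat) : Bool :=
  Bool.rec
    (bits (fun u v => cellOK (Nat.mod (Nat.div e 2) 64) (Nat.div e 128) c v u) 50 x 0)
    (bits (fun u v => cellOK (Nat.mod (Nat.div e 2) 64) (Nat.div e 128) c u v) 50 x 0)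
    (Nat.beq (Nat.mod e 2) 0)

theorem mapOK_good {e c0 n0 c n k : Nat} (g : Good k (S c0) (S n0)) (h1 : mapOK e c0 c = true)
    (h2 : mapOK e n0 n = true) : Good k (S c) (S n) := by
  unfold mapOK at h1 h2
  cases he : Nat.beq (Nat.mod e 2) 0
  · rw [he] at h1 h2
    refine good_aff ((Nat.mod (Nat.div e 2) 64 : Nat) : ℤ) ((Nat.div e 128 : Nat) : ℤ) _ _ (sg_cases (Nat.mod (Nat.div e 2) 64)) (sg_cases (Nat.div e 128))
      (good_swap g) ?_ ?_
    · rintro ⟨x, y⟩ ⟨i, hi, hc⟩
      have := cellOK_sound (bits_sound' h1 i hi)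
      simp only [cell, Prod.mk.injEq] at hc
      obtain ⟨rfl, rfl⟩ := hc
      exact this
    · rintro ⟨x, y⟩ ⟨i, hi, hc⟩
      have := cellOK_sound (bits_sound' h2 i hi)
      simp only [cell, Prod.mk.injEq] at hc
      obtain ⟨rfl, rfl⟩ := hc
      exact this
  · rw [he] at h1 h2
    refine good_aff ((Nat.mod (Nat.div e 2) 64 : Nat) : ℤ) ((Nat.div e 128 : Nat) : ℤ) _ _ (sg_cases (Nat.mod (Nat.div e 2) 64)) (sg_cases (Nat.div e 128))
      g ?_ ?_
    · rintro _ ⟨i, hi, rfl⟩
      exact cellOK_sound (bits_sound' h1 i hi)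
    · rintro _ ⟨i, hi, rfl⟩
      exact cellOK_sound (bits_sound' h2 i hi)

/-- The check of one entry against the table `t`. -/
noncomputable def chk (t : T) (K c n m e : Nat) : Bool :=
  an (sub (Nat.lor c n) MASK)
    (Bool.rec
      (Bool.rec
        (t.get m fun K0 c0 n0 => an (Nat.ble (Nat.succ K0) K) (an (mapOK e c0 c) (mapOK e n0 n)))
        (an (bit n m)
          (loop t K (Nat.lor c (Nat.shiftLeft 1 m)) (Nat.lor c n) 100 e
            (Nat.lor (Nat.lor c n) (Nat.shiftLeft 1 1500))))
        (Nat.beq (Nat.mod K 2) 0))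
      (sub SN c) (Nat.beq K 0))

theorem cc_SN {c : Nat} (h : sub SN c = true) : ContainsCopy (S c) := by
  have hb := sub_sound h
  refine ⟨(0, 0), 1, 1, Or.inl rfl, Or.inl rfl, Or.inl ?_⟩
  intro p hp
  simp only [snaky, Finset.mem_insert, Finset.mem_singleton] at hp
  rcases hp with rfl | rfl | rfl | rfl | rfl | rfl
  · exact ⟨0, hb _ (by decide +kernel), rfl⟩
  · exact ⟨1, hb _ (by decide +kernel), rfl⟩
  · exact ⟨2, hb _ (by decide +kernel), rfl⟩
  · exact ⟨3, hb _ (by decide +kernel), rfl⟩
  · exact ⟨51, hb _ (by decide +kernel), rfl⟩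
  · exact ⟨52, hb _ (by decide +kernel), rfl⟩

theorem chk_sound (t : T) (K c n m e : Nat)
    (ht : ∀ K0 c n m e, K0 < K → t.Mem K0 c n m e → Val K0 c n) (h : chk t K c n m e = true) :
    Val K c n := by
  obtain ⟨hM, h⟩ := an_iff.1 h
  have hU : ∀ i, (c ||| n).testBit i = true → i < 1152 ∧ i % 48 < 24 :=
    fun i hi => mask_spec (sub_sound hM i hi)
  have hor : ∀ i, (c ||| n).testBit i = true ↔ c.testBit i = true ∨ n.testBit i = true := by
    intro i; rw [Nat.testBit_or]; simp
  refine ⟨?_, fun i hi => (hU i ((hor i).2 hi)).2⟩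
  cases h0 : Nat.beq K 0
  · rw [h0] at h
    have hK : K ≠ 0 := Nat.ne_of_beq_eq_false h0
    cases h2 : Nat.beq (Nat.mod K 2) 0
    · rw [h2] at h
      obtain ⟨K0, c0, n0, m0, e0, hm, h⟩ := T.get_sound _ _ _ h
      simp only [an_iff] at h
      obtain ⟨h1, h3, h4⟩ := h
      have h1' : K0 < K := Nat.le_of_ble_eq_true h1
      exact good_mono (mapOK_good (ht K0 c0 n0 m0 e0 h1' hm).1 h3 h4) (by omega)
    · rw [h2] at h
      have hK2 : K % 2 = 0 := Nat.eq_of_beq_eq_true h2
      obtain ⟨hb, h⟩ := an_iff.1 h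
      have hb' := bit_sound hb
      have key := loop_sound t K _ _ ht _ _ _ h
      have hc1 : ∀ i, (Nat.lor c (Nat.shiftLeft 1 m)).testBit i = true ↔ c.testBit i = true ∨ m = i := by
        intro i
        change (c ||| 1 <<< m).testBit i = true ↔ _
        rw [Nat.testBit_or, Nat.one_shiftLeft, Nat.testBit_two_pow]; simp
      have e1 : K / 2 = (K / 2 - 1) + 1 := by omega
      rw [e1]
      refine good_step (m := cell m) ⟨m, hb', rfl⟩ ?_
      intro b hbC hbm
      have main : ∃ K0 c' n', K0 < K ∧ Good (K0 / 2) (S c') (S n') ∧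
          (∀ j, c'.testBit j = true → (Nat.lor c (Nat.shiftLeft 1 m)).testBit j = true) ∧
          (∀ j, n'.testBit j = true → (Nat.lor c n).testBit j = true) ∧ b ∉ S n' := by
        by_cases hbU : b ∈ S (c ||| n)
        · obtain ⟨i, hi, rfl⟩ := hbU
          obtain ⟨K0, c', n', g1, g2, g3, g4, g5⟩ := key i (by
              change ((c ||| n) ||| 1 <<< 1500).testBit i = true
              rw [Nat.testBit_or, hi]; rfl) (by
              rw [Bool.eq_false_iff]
              intro hh
              rcases (hc1 i).1 hh with hh | hh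
              · exact hbC ⟨i, hh, rfl⟩
              · exact hbm (by rw [hh]))
          refine ⟨K0, c', n', g1, g2, g3, g4, ?_⟩
          rintro ⟨j, hj, hij⟩
          rw [cell_inj hij, g5] at hj
          exact absurd hj (by simp)
        · obtain ⟨K0, c', n', g1, g2, g3, g4, -⟩ := key 1500 (by
              change ((c ||| n) ||| 1 <<< 1500).testBit 1500 = true
              rw [Nat.testBit_or, Nat.one_shiftLeft, Nat.testBit_two_pow_self]; simp) (by
              rw [Bool.eq_false_iff]
              intro hh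
              rcases (hc1 1500).1 hh with hh | hh
              · have := (hU 1500 ((hor _).2 (Or.inl hh))).1
                omega
              · have := (hU m ((hor _).2 (Or.inr hb'))).1
                omega)
          refine ⟨K0, c', n', g1, g2, g3, g4, ?_⟩
          rintro ⟨j, hj, hij⟩
          exact hbU ⟨j, g4 j hj, hij⟩
      obtain ⟨K0, c', n', g1, g2, g3, g4, g5⟩ := main
      refine ⟨S c', S n', good_mono g2 (by omega), ?_, ?_, g5⟩
      · rintro _ ⟨j, hj, rfl⟩
        rcases (hc1 j).1 (g3 j hj) with hh | hh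
        · exact Or.inr ⟨j, hh, rfl⟩
        · exact Or.inl (by rw [hh])
      · rintro _ ⟨j, hj, rfl⟩
        rcases (hor j).1 (g4 j hj) with hh | hh
        · exact Or.inl ⟨j, hh, rfl⟩
        · exact Or.inr ⟨j, hh, rfl⟩
  · rw [h0] at h
    have hK : K = 0 := Nat.eq_of_beq_eq_true h0
    subst hK
    exact good_base (cc_SN h)

theorem table_sound (t : T) (h : t.all (chk t) = true) :
    ∀ K c n m e, t.Mem K c n m e → Val K c n := by
  intro K
  induction K using Nat.strong_induction_on with
  | _ K ih =>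
    intro c n m e hm
    exact chk_sound t K c n m e (fun K0 c n m e h1 h2 => ih K0 h1 c n m e h2)
      (T.all_sound t _ h K c n m e hm)

theorem W_of_table (t : T) (i : Nat) (h : t.all (chk t) = true)
    (hr : t.get i (fun K c _ => an (Nat.beq K 42) (Nat.beq c 0)) = true) : W 21 ∅ ∅ := by
  obtain ⟨K, c, n, m, e, hm, h2⟩ := T.get_sound _ _ _ hr
  obtain ⟨h3, h4⟩ := an_iff.1 h2
  have hK : K = 42 := Nat.eq_of_beq_eq_true h3
  have hc : c = 0 := Nat.eq_of_beq_eq_true h4
  subst hK hc
  refine (table_sound t h _ _ _ _ _ hm).1 21 le_rfl ∅ ∅ ?_ (by simp) (by simp)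
  rintro _ ⟨j, hj, -⟩
  simp at hj

end Crest.Agent.R35
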