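import Mathlib
import Crest.Prelude.Def_PolyominoGame

/-! Game-theoretic layer for the Snaky Maker–Breaker game: winning positions, situations
(core, neighbourhood, depth), their composition and their symmetries. -/

set_option autoImplicit false

namespace Crest.Agent.R35

open Crest.CombinatoricsR.PolyominoGame

abbrev Cell := ℤ × ℤ

/-- Maker, to move, can make `k` further legal claims and own a copy after them. -/
def W : ℕ → Finset Cell → Finset Cell → Prop
  | 0, M, _ => ContainsCopy (M : Set Cell)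
  | k + 1, M, B => ∃ m, m ∉ M ∧ m ∉ B ∧ ∀ b, b ∉ insert m M → b ∉ B → W k (insert m M) (insert b B)

theorem cc_mono {X Y : Set Cell} (h : X ⊆ Y) (hX : ContainsCopy X) : ContainsCopy Y := by
  obtain ⟨t, e1, e2, h1, h2, h3⟩ := hX
  refine ⟨t, e1, e2, h1, h2, ?_⟩
  rcases h3 with h3 | h3
  · exact Or.inl fun p hp => h (h3 p hp)
  · exact Or.inr fun p hp => h (h3 p hp)

theorem fresh (M B : Finset Cell) : ∃ m, m ∉ M ∧ m ∉ B := by
  obtain ⟨m, hm⟩ := Infinite.exists_notMem_finset (M ∪ B)
  exact ⟨m, fun h => hm (Finset.mem_union_left _ h), fun h => hm (Finset.mem_union_right _ h)⟩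

theorem W_of_cc (k : ℕ) : ∀ M B : Finset Cell, ContainsCopy (M : Set Cell) → W k M B := by
  induction k with
  | zero => intro M B h; exact h
  | succ k ih =>
    intro M B h
    obtain ⟨m, h1, h2⟩ := fresh M B
    refine ⟨m, h1, h2, fun b _ _ => ih _ _ (cc_mono ?_ h)⟩
    intro x hx
    simp only [Finset.coe_insert, Set.mem_insert_iff]
    exact Or.inr hx

/-- A situation: Maker owns the core `C`, Breaker owns nothing of `N`; Maker to move wins within `k`. -/
def Good (k : ℕ) (C N : Set Cell) : Prop :=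
  ∀ j, k ≤ j → ∀ M B : Finset Cell, (∀ p ∈ C, p ∈ M) → (∀ p ∈ N, p ∉ B) → (∀ p ∈ M, p ∉ B) → W j M B

theorem good_base {C N : Set Cell} (h : ContainsCopy C) : Good 0 C N :=
  fun j _ M B hC _ _ => W_of_cc j M B (cc_mono (fun p hp => hC p hp) h)

theorem good_mono {k k' : ℕ} {C N : Set Cell} (h : Good k C N) (hk : k ≤ k') : Good k' C N :=
  fun j hj => h j (hk.trans hj)

theorem good_step {k : ℕ} {C N : Set Cell} {m : Cell} (hm : m ∈ N)
    (h : ∀ b, b ∉ C → b ≠ m → ∃ C' N' : Set Cell, Good k C' N' ∧ (∀ p ∈ C', p = m ∨ p ∈ C) ∧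
      (∀ p ∈ N', p ∈ C ∨ p ∈ N) ∧ b ∉ N') : Good (k + 1) C N := by
  intro j hj M B hC hN hMB
  obtain ⟨j, rfl⟩ : ∃ i, j = i + 1 := ⟨j - 1, by omega⟩
  obtain ⟨m', h1, h2, h3⟩ : ∃ m', m' ∉ M ∧ m' ∉ B ∧ m ∈ insert m' M := by
    by_cases hmM : m ∈ M
    · obtain ⟨m', h1, h2⟩ := fresh M B
      exact ⟨m', h1, h2, Finset.mem_insert_of_mem hmM⟩
    · exact ⟨m, hmM, hN m hm, Finset.mem_insert_self _ _⟩
  refine ⟨m', h1, h2, fun b hb1 hb2 => ?_⟩
  obtain ⟨C', N', g, g1, g2, g3⟩ := h b (fun hb => hb1 (Finset.mem_insert_of_mem (hC b hb)))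
    (fun hb => hb1 (hb ▸ h3))
  refine g j (by omega) _ _ ?_ ?_ ?_
  · intro p hp
    rcases g1 p hp with rfl | hp'
    · exact h3
    · exact Finset.mem_insert_of_mem (hC p hp')
  · intro p hp hq
    rcases Finset.mem_insert.1 hq with rfl | hq
    · exact g3 hp
    · rcases g2 p hp with hp' | hp'
      · exact hMB p (hC p hp') hq
      · exact hN p hp' hq
  · intro p hp hq
    rcases Finset.mem_insert.1 hq with rfl | hq
    · exact hb1 hp
    · rcases Finset.mem_insert.1 hp with rfl | hp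
      · exact h2 hq
      · exact hMB p hp hq

theorem W_map (e : Cell ≃ Cell) (he : ∀ X : Set Cell, ContainsCopy X → ContainsCopy (e '' X))
    (k : ℕ) : ∀ M B : Finset Cell, W k M B → W k (M.map e.toEmbedding) (B.map e.toEmbedding) := by
  induction k with
  | zero =>
    intro M B h
    have := he _ h
    simpa [W, Finset.coe_map] using this
  | succ k ih =>
    rintro M B ⟨m, h1, h2, h3⟩
    refine ⟨e m, by simpa using h1, by simpa using h2, fun b hb1 hb2 => ?_⟩
    have := ih _ _ (h3 (e.symm b) ?_ ?_)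
    · simpa [Finset.map_insert] using this
    · intro h
      apply hb1
      rcases Finset.mem_insert.1 h with h | h
      · rw [← h]; simp
      · exact Finset.mem_insert_of_mem (by simpa using h)
    · intro h
      exact hb2 (by simpa using h)

theorem good_map (e : Cell ≃ Cell) (he : ∀ X : Set Cell, ContainsCopy X → ContainsCopy (e '' X))
    {k : ℕ} {C N C' N' : Set Cell} (h : Good k C N) (hC : ∀ p ∈ C, e p ∈ C')
    (hN : ∀ p ∈ N, e p ∈ N') : Good k C' N' := by
  intro j hj M B h1 h2 h3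
  have := W_map e he j _ _ (h j hj (M.map e.symm.toEmbedding) (B.map e.symm.toEmbedding) ?_ ?_ ?_)
  · simpa [Finset.map_map] using this
  · intro p hp
    simpa using h1 _ (hC p hp)
  · intro p hp
    simpa using h2 _ (hN p hp)
  · intro p hp
    simp only [Finset.mem_map_equiv, Equiv.symm_symm] at hp ⊢
    exact h3 _ hp

/-- Translation composed with sign changes. -/
def aff (tx ty s1 s2 : ℤ) (h1 : s1 = 1 ∨ s1 = -1) (h2 : s2 = 1 ∨ s2 = -1) : Cell ≃ Cell where
  toFun p := (tx + s1 * p.1, ty + s2 * p.2)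
  invFun p := (s1 * (p.1 - tx), s2 * (p.2 - ty))
  left_inv p := by
    rcases h1 with rfl | rfl <;> rcases h2 with rfl | rfl <;> ext <;> simp
  right_inv p := by
    rcases h1 with rfl | rfl <;> rcases h2 with rfl | rfl <;> ext <;> simp

theorem cc_aff (tx ty s1 s2 : ℤ) (h1 : s1 = 1 ∨ s1 = -1) (h2 : s2 = 1 ∨ s2 = -1) (X : Set Cell)
    (h : ContainsCopy X) : ContainsCopy (aff tx ty s1 s2 h1 h2 '' X) := by
  obtain ⟨t, e1, e2, g1, g2, g3⟩ := h
  refine ⟨(tx + s1 * t.1, ty + s2 * t.2), s1 * e1, s2 * e2, ?_, ?_, ?_⟩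
  · rcases h1 with rfl | rfl <;> rcases g1 with rfl | rfl <;> simp
  · rcases h2 with rfl | rfl <;> rcases g2 with rfl | rfl <;> simp
  · rcases g3 with g3 | g3
    · refine Or.inl fun p hp => ⟨_, g3 p hp, ?_⟩
      simp only [aff, Equiv.coe_fn_mk, Prod.mk.injEq]
      constructor <;> ring
    · refine Or.inr fun p hp => ⟨_, g3 p hp, ?_⟩
      simp only [aff, Equiv.coe_fn_mk, Prod.mk.injEq]
      constructor <;> ring

theorem cc_swap (X : Set Cell) (h : ContainsCopy X) : ContainsCopy (Equiv.prodComm ℤ ℤ '' X) := by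
  obtain ⟨t, e1, e2, g1, g2, g3⟩ := h
  refine ⟨(t.2, t.1), e2, e1, g2, g1, ?_⟩
  rcases g3 with g3 | g3
  · exact Or.inr fun p hp => ⟨_, g3 p hp, rfl⟩
  · exact Or.inl fun p hp => ⟨_, g3 p hp, rfl⟩

theorem good_aff (tx ty s1 s2 : ℤ) (h1 : s1 = 1 ∨ s1 = -1) (h2 : s2 = 1 ∨ s2 = -1)
    {k : ℕ} {C N C' N' : Set Cell} (h : Good k C N)
    (hC : ∀ p ∈ C, (tx + s1 * p.1, ty + s2 * p.2) ∈ C')
    (hN : ∀ p ∈ N, (tx + s1 * p.1, ty + s2 * p.2) ∈ N') : Good k C' N' :=
  good_map (aff tx ty s1 s2 h1 h2) (cc_aff tx ty s1 s2 h1 h2) h hC hN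

theorem good_swap {k : ℕ} {C N : Set Cell} (h : Good k C N) :
    Good k {p | (p.2, p.1) ∈ C} {p | (p.2, p.1) ∈ N} :=
  good_map (Equiv.prodComm ℤ ℤ) cc_swap h (fun _ hp => hp) (fun _ hp => hp)

/-! ### From a winning position to a policy -/

open Classical in
/-- Maker's choice when it owns `M` and Breaker's replies are `r` (latest first). -/
noncomputable def pick (M : Finset Cell) (r : List Cell) : Cell :=
  if h : ∃ m, m ∉ M ∧ m ∉ r.toFinset ∧ ∀ b, b ∉ insert m M → b ∉ r.toFinset →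
      W (20 - r.length) (insert m M) (insert b r.toFinset) then h.choose else (0, 0)

/-- Maker's cells after the replies `r` (latest first). -/
noncomputable def own : List Cell → Finset Cell
  | [] => ∅
  | _ :: r => insert (pick (own r) r) (own r)

noncomputable def policy (l : List Cell) : Cell := pick (own l.reverse) l.reverse

/-- The first `k` replies, latest first. -/
def hist (b : ℕ → Cell) (k : ℕ) : List Cell := ((List.range k).map b).reverse

theorem hist_succ (b : ℕ → Cell) (k : ℕ) : hist b (k + 1) = b k :: hist b k := by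
  simp [hist, List.range_succ]

theorem hist_length (b : ℕ → Cell) (k : ℕ) : (hist b k).length = k := by simp [hist]

theorem mem_hist (b : ℕ → Cell) (k : ℕ) (x : Cell) :
    x ∈ (hist b k).toFinset ↔ ∃ j, j < k ∧ x = b j := by
  simp only [hist, List.mem_toFinset, List.mem_reverse, List.mem_map, List.mem_range]
  constructor
  · rintro ⟨j, h1, h2⟩; exact ⟨j, h1, h2.symm⟩
  · rintro ⟨j, h1, h2⟩; exact ⟨j, h1, h2.symm⟩

theorem claim_eq (b : ℕ → Cell) (k : ℕ) :
    makerClaim policy b k = pick (own (hist b k)) (hist b k) := rfl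

theorem mem_own (b : ℕ → Cell) (k : ℕ) (x : Cell) :
    x ∈ own (hist b k) ↔ ∃ j, j < k ∧ x = makerClaim policy b j := by
  induction k with
  | zero => simp [hist, own]
  | succ k ih =>
    rw [hist_succ, own, Finset.mem_insert, ih, ← claim_eq]
    constructor
    · rintro (h | ⟨j, h1, h2⟩)
      · exact ⟨k, by omega, h⟩
      · exact ⟨j, by omega, h2⟩
    · rintro ⟨j, h1, h2⟩
      by_cases hj : j = k
      · exact Or.inl (hj ▸ h2)
      · exact Or.inr ⟨j, by omega, h2⟩

theorem pick_spec (b : ℕ → Cell) (k : ℕ) (hk : k ≤ 20)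
    (h : W (21 - k) (own (hist b k)) (hist b k).toFinset) :
    makerClaim policy b k ∉ own (hist b k) ∧ makerClaim policy b k ∉ (hist b k).toFinset ∧
      ∀ x, x ∉ insert (makerClaim policy b k) (own (hist b k)) → x ∉ (hist b k).toFinset →
        W (20 - k) (insert (makerClaim policy b k) (own (hist b k)))
          (insert x (hist b k).toFinset) := by
  have e : 21 - k = (20 - k) + 1 := by omega
  rw [e] at h
  have h' : ∃ m, m ∉ own (hist b k) ∧ m ∉ (hist b k).toFinset ∧
      ∀ x, x ∉ insert m (own (hist b k)) → x ∉ (hist b k).toFinset →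
      W (20 - (hist b k).length) (insert m (own (hist b k))) (insert x (hist b k).toFinset) := by
    rw [hist_length]; exact h
  have := h'.choose_spec
  rw [claim_eq, pick, dif_pos h']
  generalize h'.choose = m at this ⊢
  rw [hist_length] at this
  exact this

theorem main_of_W (h0 : W 21 ∅ ∅) :
    ∃ σ : List (ℤ × ℤ) → ℤ × ℤ, ∀ b : ℕ → ℤ × ℤ,
      (∀ k : ℕ, k < 20 →
        (∀ j : ℕ, j ≤ k → b k ≠ makerClaim σ b j) ∧
        (∀ j : ℕ, j < k → b k ≠ b j)) →
      (∀ k : ℕ, k ≤ 20 →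
        (∀ j : ℕ, j < k → makerClaim σ b k ≠ makerClaim σ b j) ∧
        (∀ j : ℕ, j < k → makerClaim σ b k ≠ b j)) ∧
      ContainsCopy {c | ∃ j : ℕ, j ≤ 20 ∧ c = makerClaim σ b j} := by
  refine ⟨policy, fun b hb => ?_⟩
  have inv : ∀ k, k ≤ 20 → W (21 - k) (own (hist b k)) (hist b k).toFinset := by
    intro k
    induction k with
    | zero => intro _; simpa [hist, own] using h0
    | succ k ih =>
      intro hk
      obtain ⟨-, -, h3⟩ := pick_spec b k (by omega) (ih (by omega))
      have e : 21 - (k + 1) = 20 - k := by omega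
      rw [e, hist_succ, own, List.toFinset_cons, ← claim_eq]
      apply h3
      · intro h
        rcases Finset.mem_insert.1 h with h | h
        · exact (hb k (by omega)).1 k le_rfl h
        · obtain ⟨j, h1, h2⟩ := (mem_own b k _).1 h
          exact (hb k (by omega)).1 j h1.le h2
      · intro h
        obtain ⟨j, h1, h2⟩ := (mem_hist b k _).1 h
        exact (hb k (by omega)).2 j h1 h2
  refine ⟨fun k hk => ?_, ?_⟩
  · obtain ⟨h1, h2, -⟩ := pick_spec b k hk (inv k hk)
    exact ⟨fun j hj h => h1 ((mem_own b k _).2 ⟨j, hj, h⟩),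
      fun j hj h => h2 ((mem_hist b k _).2 ⟨j, hj, h⟩)⟩
  · obtain ⟨-, -, h3⟩ := pick_spec b 20 le_rfl (inv 20 le_rfl)
    obtain ⟨x, hx1, hx2⟩ := fresh (insert (makerClaim policy b 20) (own (hist b 20)))
      (hist b 20).toFinset
    have := h3 x hx1 hx2
    refine cc_mono ?_ this
    intro c hc
    simp only [Finset.coe_insert, Set.mem_insert_iff, Finset.mem_coe] at hc
    rcases hc with hc | hc
    · exact ⟨20, le_rfl, hc⟩
    · obtain ⟨j, h1, h2⟩ := (mem_own b 20 _).1 hc
      exact ⟨j, h1.le, h2⟩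

end Crest.Agent.R35
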