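import Crest.Agent.R35.D0
import Crest.Agent.R35.D1
import Crest.Agent.R35.D2
import Crest.Agent.R35.D3

/-! The whole certificate table. -/

set_option autoImplicit false
set_option maxRecDepth 100000

namespace Crest.Agent.R35

noncomputable def tab : T := (.node (nat_lit 0x162f) (.node (nat_lit 0xb18) d0 d1) (.node (nat_lit 0x2146) d2 d3))

end Crest.Agent.R35
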