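import Crest.Agent.R35.C0
import Crest.Agent.R35.C1
import Crest.Agent.R35.C2
import Crest.Agent.R35.C3

/-! Maker wins within 21 claims. -/

set_option autoImplicit false
set_option maxRecDepth 100000

namespace Crest.Agent.R35

theorem tab_ok : tab.all (chk tab) = true := (T.all_node _ _ _ _ (T.all_node _ _ _ _ c0 c1) (T.all_node _ _ _ _ c2 c3))

theorem win : W 21 ∅ ∅ := W_of_table tab 1 tab_ok (by decide +kernel)

end Crest.Agent.R35
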